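import Mathlib.MeasureTheory.Covering.BesicovitchVectorSpace
import Vale.Agent.P054.MathlibUsed
import Vale.Agent.P054.H449.IM.Defs
attribute [-instance] ProperSMul.toContinuousSMul IsTopologicalTorsor.toContinuousSMul IdemSemiring.toCanonicallyOrderedAdd IdemSemiring.toMulLeftMono IdemSemiring.toMulRightMono AddQuantale.instAddLeftMono AddQuantale.instAddRightMono Quantale.instMulLeftMono Quantale.instMulRightMono FiniteDimensional.rclike_to_real IsScalarTower.complexToReal FiniteDimensional.complexToReal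

set_option linter.all false
set_option autoImplicit false

open Finset

namespace Vale.Agent.P054I

/-- two directions of vectors that are at least as far from each other as they are long -/
theorem unit_sep {E : Type*} [NormedAddCommGroup E] [InnerProductSpace ℝ E] {a b : E}
    (ha : a ≠ 0) (hb : b ≠ 0) (h1 : ‖a‖ ≤ ‖a - b‖) (h2 : ‖b‖ ≤ ‖a - b‖) :
    1 ≤ ‖(‖a‖⁻¹) • a - (‖b‖⁻¹) • b‖ := by
  have ha' : 0 < ‖a‖ := norm_pos_iff.mpr ha
  have hb' : 0 < ‖b‖ := norm_pos_iff.mpr hb
  have e1 : ‖a - b‖ ^ 2 = ‖a‖ ^ 2 - 2 * inner ℝ a b + ‖b‖ ^ 2 := norm_sub_sq_real a b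
  have h3 : 2 * inner ℝ a b ≤ ‖a‖ * ‖b‖ := by
    rcases le_total ‖a‖ ‖b‖ with h | h
    · have : ‖b‖ ^ 2 ≤ ‖a - b‖ ^ 2 := pow_le_pow_left₀ hb'.le h2 2
      nlinarith
    · have : ‖a‖ ^ 2 ≤ ‖a - b‖ ^ 2 := pow_le_pow_left₀ ha'.le h1 2
      nlinarith
  have e2 : ‖(‖a‖⁻¹) • a - (‖b‖⁻¹) • b‖ ^ 2 = 2 - 2 * inner ℝ a b / (‖a‖ * ‖b‖) := by
    rw [norm_sub_sq_real, norm_smul, norm_smul, norm_inv, norm_inv, norm_norm, norm_norm,
      inv_mul_cancel₀ ha'.ne', inv_mul_cancel₀ hb'.ne', inner_smul_left, inner_smul_right]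
    simp only [RCLike.conj_to_real]
    field_simp
    ring
  have h4 : 2 * inner ℝ a b / (‖a‖ * ‖b‖) ≤ 1 := by
    rw [div_le_one (by positivity)]
    exact h3
  have h5 : 1 ≤ ‖(‖a‖⁻¹) • a - (‖b‖⁻¹) • b‖ ^ 2 := by rw [e2]; linarith
  by_contra hc
  push Not at hc
  have := pow_lt_one₀ (norm_nonneg _) hc (two_ne_zero)
  linarith

/-- greedy choice of nearest points -/
theorem greedy {E : Type*} [NormedAddCommGroup E] [InnerProductSpace ℝ E] (y' : E) :
    open scoped Classical in
    ∀ (n : ℕ) (T : Finset E), T.card ≤ n →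
    ∃ C ⊆ T, (∀ c ∈ C, ∀ c' ∈ C, c ≠ c' → dist c y' ≤ dist c c' ∧ dist c' y' ≤ dist c c') ∧
      ∀ z ∈ T, ∃ c ∈ C, z = c ∨ dist z c < dist z y' := by
  classical
  intro n
  induction n with
  | zero =>
    intro T hT
    have : T = ∅ := by simpa using hT
    subst this
    exact ⟨∅, by simp, by simp, by simp⟩
  | succ n ih =>
    intro T hT
    rcases T.eq_empty_or_nonempty with rfl | hne
    · exact ⟨∅, by simp, by simp, by simp⟩
    obtain ⟨y, hy, hmin⟩ := T.exists_min_image (fun z => dist z y') hne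
    obtain ⟨C, hCT, hC, hcov⟩ := ih ((T.erase y).filter (fun z => ¬ dist z y < dist z y')) (by
      calc _ ≤ (T.erase y).card := card_le_card (filter_subset _ _)
        _ = T.card - 1 := card_erase_of_mem hy
        _ ≤ n := by omega)
    refine ⟨insert y C, ?_, ?_, ?_⟩
    · intro z hz
      rcases mem_insert.mp hz with rfl | hz
      · exact hy
      · exact mem_of_mem_erase (mem_filter.mp (hCT hz)).1
    · have key : ∀ c ∈ C, dist c y' ≤ dist c y ∧ dist y y' ≤ dist c y := by
        intro c hc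
        have h1 := mem_filter.mp (hCT hc)
        have h2 := h1.2
        push Not at h2
        exact ⟨h2, (hmin c (mem_of_mem_erase h1.1)).trans h2⟩
      intro c hc c' hc' hne'
      rcases mem_insert.mp hc with h1 | h1 <;> rcases mem_insert.mp hc' with h2 | h2
      · exact absurd (h1.trans h2.symm) hne'
      · have := key c' h2
        rw [h1, dist_comm y c']
        exact ⟨this.2, this.1⟩
      · rw [h2]
        exact key c h1
      · exact hC c h1 c' h2 hne'
    · intro z hz
      by_cases h : z = y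
      · exact ⟨y, mem_insert_self _ _, Or.inl h⟩
      by_cases h2 : dist z y < dist z y'
      · exact ⟨y, mem_insert_self _ _, Or.inr h2⟩
      obtain ⟨c, hc, h3⟩ := hcov z (mem_filter.mpr ⟨mem_erase.mpr ⟨h, hz⟩, h2⟩)
      exact ⟨c, mem_insert_of_mem hc, h3⟩

/-- few nearly extreme points seen from one point -/
theorem few_light {d : ℕ} (X : Finset (EuclideanSpace ℝ (Fin d))) (b : ℕ) (hb : 1 ≤ b)
    (y' : EuclideanSpace ℝ (Fin d)) :
    open scoped Classical in
    (X.filter (fun y => y ≠ y' ∧ (X.filter (fun z => dist z y < dist z y')).card < b)).card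
      ≤ 5 ^ d * b := by
  classical
  set T := X.filter (fun y => y ≠ y' ∧ (X.filter (fun z => dist z y < dist z y')).card < b)
    with hT
  obtain ⟨C, hCT, hC, hcov⟩ := greedy y' T.card T le_rfl
  have hCne : ∀ c ∈ C, c - y' ≠ 0 := by
    intro c hc
    exact sub_ne_zero.mpr (mem_filter.mp (hCT hc)).2.1
  have hsep : ∀ c ∈ C, ∀ c' ∈ C, c ≠ c' →
      1 ≤ ‖(‖c - y'‖⁻¹) • (c - y') - (‖c' - y'‖⁻¹) • (c' - y')‖ := by
    intro c hc c' hc' hne
    obtain ⟨h1, h2⟩ := hC c hc c' hc' hne
    apply unit_sep (hCne c hc) (hCne c' hc')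
    · rw [sub_sub_sub_cancel_right, ← dist_eq_norm, ← dist_eq_norm]; exact h1
    · rw [sub_sub_sub_cancel_right, ← dist_eq_norm, ← dist_eq_norm]; exact h2
  have hinj : Set.InjOn (fun c => (‖c - y'‖⁻¹) • (c - y')) (C : Set (EuclideanSpace ℝ (Fin d))) := by
    intro c hc c' hc' h
    by_contra hne
    have := hsep c hc c' hc' hne
    simp only at h
    rw [h, sub_self, norm_zero] at this
    linarith
  have hcard : C.card ≤ 5 ^ d := by
    rw [← card_image_of_injOn hinj]
    have := Besicovitch.card_le_of_separated (C.image (fun c => (‖c - y'‖⁻¹) • (c - y'))) (by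
      intro u hu
      obtain ⟨c, hc, rfl⟩ := mem_image.mp hu
      have h0 : 0 < ‖c - y'‖ := norm_pos_iff.mpr (hCne c hc)
      rw [norm_smul, norm_inv, norm_norm, inv_mul_cancel₀ h0.ne']
      norm_num) (by
      intro u hu u' hu' hne
      obtain ⟨c, hc, rfl⟩ := mem_image.mp hu
      obtain ⟨c', hc', rfl⟩ := mem_image.mp hu'
      apply hsep c hc c' hc'
      rintro rfl
      exact hne rfl)
    rwa [finrank_euclideanSpace_fin] at this
  have hTsub : T ⊆ C.biUnion (fun c => X.filter (fun z => dist z c < dist z y')) := by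
    intro z hz
    obtain ⟨c, hc, h⟩ := hcov z hz
    rw [mem_biUnion]
    refine ⟨c, hc, mem_filter.mpr ⟨(mem_filter.mp hz).1, ?_⟩⟩
    rcases h with rfl | h
    · rw [dist_self]
      exact dist_pos.mpr (mem_filter.mp hz).2.1
    · exact h
  calc T.card ≤ (C.biUnion (fun c => X.filter (fun z => dist z c < dist z y'))).card :=
        card_le_card hTsub
    _ ≤ ∑ c ∈ C, (X.filter (fun z => dist z c < dist z y')).card := card_biUnion_le
    _ ≤ ∑ c ∈ C, b := sum_le_sum (fun c hc => (mem_filter.mp (hCT hc)).2.2.le)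
    _ = C.card * b := by rw [sum_const, smul_eq_mul]
    _ ≤ 5 ^ d * b := Nat.mul_le_mul_right _ hcard

/-- (L) few light pairs -/
theorem light_pairs (d : ℕ) : LightProp d := by
  classical
  intro X b hb
  have h1 : (X.offDiag.filter (fun π => ¬ Heavy X b π)) ⊆
      (X.offDiag.filter (fun π => (X.filter (fun z => dist z π.1 < dist z π.2)).card < b)) ∪
      (X.offDiag.filter (fun π => (X.filter (fun z => dist z π.2 < dist z π.1)).card < b)) := by
    intro π hπ
    rw [mem_filter] at hπ
    obtain ⟨h0, h2⟩ := hπ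
    unfold Heavy at h2
    rw [not_and_or, not_le, not_le] at h2
    rw [mem_union, mem_filter, mem_filter]
    rcases h2 with h2 | h2
    · exact Or.inl ⟨h0, h2⟩
    · exact Or.inr ⟨h0, h2⟩
  have h2 : (X.offDiag.filter (fun π =>
      (X.filter (fun z => dist z π.1 < dist z π.2)).card < b)).card ≤ X.card * (5 ^ d * b) := by
    calc _ ≤ (X.biUnion (fun y' => (X.filter (fun y => y ≠ y' ∧
          (X.filter (fun z => dist z y < dist z y')).card < b)).image (fun y => (y, y')))).card := by
          apply card_le_card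
          rintro ⟨y, y'⟩ h
          rw [mem_filter, mem_offDiag] at h
          rw [mem_biUnion]
          exact ⟨y', h.1.2.1, mem_image.mpr ⟨y, mem_filter.mpr ⟨h.1.1, h.1.2.2, h.2⟩, rfl⟩⟩
      _ ≤ ∑ y' ∈ X, ((X.filter (fun y => y ≠ y' ∧
          (X.filter (fun z => dist z y < dist z y')).card < b)).image (fun y => (y, y'))).card :=
          card_biUnion_le
      _ ≤ ∑ y' ∈ X, 5 ^ d * b := sum_le_sum (fun y' _ => card_image_le.trans (few_light X b hb y'))
      _ = X.card * (5 ^ d * b) := by rw [sum_const, smul_eq_mul]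
  have h3 : (X.offDiag.filter (fun π =>
      (X.filter (fun z => dist z π.2 < dist z π.1)).card < b)).card ≤ X.card * (5 ^ d * b) := by
    refine le_trans ?_ h2
    apply card_le_card_of_injOn Prod.swap
    · rintro ⟨y, y'⟩ h
      rw [mem_coe, mem_filter, mem_offDiag] at h
      rw [mem_coe, mem_filter, mem_offDiag]
      exact ⟨⟨h.1.2.1, h.1.1, h.1.2.2.symm⟩, h.2⟩
    · exact Prod.swap_injective.injOn
  calc _ ≤ _ := card_le_card h1
    _ ≤ _ := card_union_le _ _
    _ ≤ X.card * (5 ^ d * b) + X.card * (5 ^ d * b) := Nat.add_le_add h2 h3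
    _ ≤ 4 * 5 ^ d * b * X.card := by
      have : X.card * (5 ^ d * b) = 5 ^ d * b * X.card := by ring
      nlinarith [Nat.zero_le (5 ^ d * b * X.card)]

end Vale.Agent.P054I
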