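import Vale.Agent.P054.MathlibUsed
import Vale.Agent.P054.H449.IM.Defs3
import Vale.Agent.P054.H420.G.HeavyB
attribute [-instance] ProperSMul.toContinuousSMul IsTopologicalTorsor.toContinuousSMul IdemSemiring.toCanonicallyOrderedAdd IdemSemiring.toMulLeftMono IdemSemiring.toMulRightMono AddQuantale.instAddLeftMono AddQuantale.instAddRightMono Quantale.instMulLeftMono Quantale.instMulRightMono FiniteDimensional.rclike_to_real IsScalarTower.complexToReal FiniteDimensional.complexToReal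

set_option linter.all false
set_option autoImplicit false

open Finset Vale.Agent.P054K Vale.Agent.P054G

namespace Vale.Agent.P054I

open scoped Classical in
/-- a set with few missing edges has few points in no triangle -/
theorem tri_class {α : Type*} (C : Finset α) (R : α → α → Prop)
    (hsym : ∀ a b, R a b → R b a) (hm : 3 ≤ C.card) :
    (C.filter (fun a => ¬ ∃ b ∈ C, ∃ c ∈ C, a ≠ b ∧ b ≠ c ∧ c ≠ a ∧ R a b ∧ R b c ∧ R c a)).card *
      C.card ≤ 18 * ((C ×ˢ C).filter (fun z => z.1 ≠ z.2 ∧ ¬ R z.1 z.2)).card := by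
  obtain ⟨N, hN⟩ : ∃ N : Finset α, N = C.filter (fun a => ¬ ∃ b ∈ C, ∃ c ∈ C, a ≠ b ∧ b ≠ c ∧
    c ≠ a ∧ R a b ∧ R b c ∧ R c a) := ⟨_, rfl⟩
  obtain ⟨T, hT⟩ : ∃ T : Finset (α × α), T = (C ×ˢ C).filter (fun z => z.1 ≠ z.2 ∧ ¬ R z.1 z.2) :=
    ⟨_, rfl⟩
  rw [← hN, ← hT]
  obtain ⟨nb, hnb⟩ : ∃ nb : α → Finset α, nb = fun q => C.filter (fun a => q ≠ a ∧ R q a) :=
    ⟨_, rfl⟩
  have hmnb : ∀ q a, a ∈ nb q ↔ a ∈ C ∧ q ≠ a ∧ R q a := by
    intro q a
    rw [hnb]
    simp only [Finset.mem_filter]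
  have hNC : N ⊆ C := by rw [hN]; exact Finset.filter_subset _ _
  have hNm : N.card ≤ C.card := Finset.card_le_card hNC
  by_cases h : ∃ q ∈ N, 2 ≤ (nb q).card ∧ C.card ≤ 3 * (nb q).card
  · obtain ⟨q, hq, h2, h3⟩ := h
    have hsub : (nb q).offDiag ⊆ T := by
      intro z hz
      rw [Finset.mem_offDiag] at hz
      obtain ⟨z1, z2, z3⟩ := hz
      rw [hmnb] at z1 z2
      rw [hT, Finset.mem_filter, Finset.mem_product]
      refine ⟨⟨z1.1, z2.1⟩, z3, ?_⟩
      intro hR
      rw [hN, Finset.mem_filter] at hq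
      apply hq.2
      exact ⟨z.1, z1.1, z.2, z2.1, z1.2.1, z3, z2.2.1.symm, z1.2.2, hR, hsym _ _ z2.2.2⟩
    have h4 := Finset.card_le_card hsub
    rw [Finset.offDiag_card] at h4
    obtain ⟨b, hb⟩ : ∃ b : ℕ, b = (nb q).card := ⟨_, rfl⟩
    rw [← hb] at h2 h3 h4
    have h5 : b ≤ b * b := Nat.le_mul_self b
    have h6 : N.card * C.card ≤ (3 * b) * (3 * b) :=
      Nat.mul_le_mul (hNm.trans h3) h3
    have h7 : b * b ≤ T.card + b := by omega
    nlinarith
  · push Not at h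
    have hpart : ∀ q ∈ N, C.card ≤ 3 * (C.filter (fun a => q ≠ a ∧ ¬ R q a)).card := by
      intro q hq
      have h1 := h q hq
      have hqC := hNC hq
      have e1 : C.card = 1 + (nb q).card + (C.filter (fun a => q ≠ a ∧ ¬ R q a)).card := by
        have a1 := Finset.card_filter_add_card_filter_not (s := C) (fun a => q ≠ a)
        have a2 := Finset.card_filter_add_card_filter_not (s := C.filter (fun a => q ≠ a))
          (fun a => R q a)
        rw [Finset.filter_filter, Finset.filter_filter] at a2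
        have a3 : (C.filter (fun a => ¬ q ≠ a)).card = 1 := by
          have : C.filter (fun a => ¬ q ≠ a) = {q} := by
            ext a
            rw [Finset.mem_filter, Finset.mem_singleton]
            constructor
            · rintro ⟨_, h2⟩
              push Not at h2
              exact h2.symm
            · rintro rfl
              exact ⟨hqC, by simp⟩
          rw [this, Finset.card_singleton]
        rw [hnb]
        simp only
        omega
      by_cases h2 : 2 ≤ (nb q).card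
      · have := h1 h2
        omega
      · omega
    have hsum : ∑ q ∈ N, (C.filter (fun a => q ≠ a ∧ ¬ R q a)).card ≤ T.card := by
      have e1 : T.card = ∑ q ∈ C, (C.filter (fun a => q ≠ a ∧ ¬ R q a)).card := by
        rw [hT, Finset.card_filter, Finset.sum_product]
        apply Finset.sum_congr rfl
        intro q _
        rw [Finset.card_filter]
      rw [e1]
      exact Finset.sum_le_sum_of_subset hNC
    have h3 : N.card * C.card ≤ ∑ q ∈ N, 3 * (C.filter (fun a => q ≠ a ∧ ¬ R q a)).card := by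
      rw [← smul_eq_mul, ← Finset.sum_const]
      exact Finset.sum_le_sum hpart
    rw [← Finset.mul_sum] at h3
    omega

open scoped Classical in
theorem tri_class' {α : Type*} (C : Finset α) (R : α → α → Prop)
    (hsym : ∀ a b, R a b → R b a) (hm : 3 ≤ C.card) :
    ∃ (N : Finset α) (T : Finset (α × α)),
      (∀ a ∈ C, (¬ ∃ b ∈ C, ∃ c ∈ C, a ≠ b ∧ b ≠ c ∧ c ≠ a ∧ R a b ∧ R b c ∧ R c a) → a ∈ N) ∧
      (∀ z ∈ T, z.1 ∈ C ∧ z.2 ∈ C ∧ z.1 ≠ z.2 ∧ ¬ R z.1 z.2) ∧
      N.card * C.card ≤ 18 * T.card := by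
  refine ⟨_, _, ?_, ?_, tri_class C R hsym hm⟩
  · intro a ha h
    rw [Finset.mem_filter]
    exact ⟨ha, h⟩
  · intro z hz
    rw [Finset.mem_filter, Finset.mem_product] at hz
    exact ⟨hz.1.1, hz.1.2, hz.2.1, hz.2.2⟩

open scoped Classical in
/-- summation over classes -/
theorem sum_classes {α β : Type*} (S : Finset α) (T : Finset (α × α)) (f : α → β) (U : Finset β)
    (hS : ∀ q ∈ S, f q ∈ U) (hT : ∀ z ∈ T, f z.1 ∈ U) (r0 c : ℝ)
    (h : ∀ u ∈ U, ((S.filter (fun q => f q = u)).card : ℝ) ≤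
      r0 + c * ((T.filter (fun z => f z.1 = u)).card : ℝ)) :
    (S.card : ℝ) ≤ U.card * r0 + c * T.card := by
  have hs1 : S.card = ∑ u ∈ U, (S.filter (fun q => f q = u)).card :=
    Finset.card_eq_sum_card_fiberwise (f := f) hS
  have hs2 : T.card = ∑ u ∈ U, (T.filter (fun z => f z.1 = u)).card :=
    Finset.card_eq_sum_card_fiberwise (f := fun z : α × α => f z.1) hT
  rw [hs1, hs2]
  push_cast
  rw [Finset.mul_sum, ← nsmul_eq_mul, ← Finset.sum_const, ← Finset.sum_add_distrib]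
  exact Finset.sum_le_sum h

theorem dl_comm {d : ℕ} (a b : EuclideanSpace ℝ (Fin d)) : dl a b = dl b a := by
  unfold dl
  have : dualVec (a, b) = -dualVec (b, a) := by
    unfold dualVec
    simp only [Prod.neg_mk, neg_sub]
  rw [this, ← Set.neg_singleton, Submodule.span_neg]

open scoped Classical in
/-- a pair at equal distance that is not on a heavy line of its level is a poor pair -/
theorem poor_of_not_heavy {d s : ℕ} (F : Fin s → Finset (Finset (EuclideanSpace ℝ (Fin d))))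
    (x l : ℕ) (μ : ℕ → ℝ) (p : EuclideanSpace ℝ (Fin d)) (τ : Fin s)
    (X : Finset (EuclideanSpace ℝ (Fin d))) (hX : X ∈ F τ) (hx : X.card = x) (hxl : x < 2 ^ l)
    (y y' : EuclideanSpace ℝ (Fin d)) (hyX : y ∈ X) (hyX' : y' ∈ X) (hne : y ≠ y')
    (hdv : dualVec (y, y') ∈ hyp p)
    (hn : dl y y' ∉ (range l).biUnion (fun a => vb F a (μ a) p X)) :
    (τ, (y, y')) ∈ (range l).biUnion (fun a => Jt F a (μ a)) := by
  have hoff : (y, y') ∈ X.offDiag := Finset.mem_offDiag.mpr ⟨hyX, hyX', hne⟩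
  have hidx : ((τ, (y, y')) : Fin s × (EuclideanSpace ℝ (Fin d) × EuclideanSpace ℝ (Fin d))) ∈
      idx F := (mem_idx F _).mpr ⟨X, hX, hoff⟩
  -- the level
  obtain ⟨A, hA⟩ : ∃ A : ℕ, A = (X.filter (fun z => dist z y < dist z y')).card := ⟨_, rfl⟩
  obtain ⟨B, hB⟩ : ∃ B : ℕ, B = (X.filter (fun z => dist z y' < dist z y)).card := ⟨_, rfl⟩
  have hpos : 0 < dist y y' := dist_pos.mpr hne
  have hA1 : 1 ≤ A := by
    rw [hA]
    apply Finset.card_pos.mpr
    refine ⟨y, Finset.mem_filter.mpr ⟨hyX, ?_⟩⟩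
    rw [dist_self]; exact hpos
  have hB1 : 1 ≤ B := by
    rw [hB]
    apply Finset.card_pos.mpr
    refine ⟨y', Finset.mem_filter.mpr ⟨hyX', ?_⟩⟩
    rw [dist_self, dist_comm]; exact hpos
  have hAx : A ≤ x := by rw [hA, ← hx]; exact Finset.card_filter_le _ _
  obtain ⟨a, ha⟩ : ∃ a : ℕ, a = Nat.log 2 (min A B) := ⟨_, rfl⟩
  have hmin : min A B ≠ 0 := by
    have : 1 ≤ min A B := le_min hA1 hB1
    omega
  have ha1 : 2 ^ a ≤ min A B := by rw [ha]; exact Nat.pow_log_le_self 2 hmin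
  have ha2 : min A B < 2 ^ (a + 1) := by
    rw [ha]; exact Nat.lt_pow_succ_log_self (by norm_num) _
  have hal : a < l := by
    have h1 : 2 ^ a < 2 ^ l := by
      calc 2 ^ a ≤ min A B := ha1
        _ ≤ A := min_le_left _ _
        _ ≤ x := hAx
        _ < 2 ^ l := hxl
    exact (Nat.pow_lt_pow_iff_right (by norm_num)).mp h1
  have hH1 : Heavy X (2 ^ a) (y, y') := by
    refine ⟨?_, ?_⟩
    · have := ha1.trans (min_le_left A B)
      rw [hA] at this
      exact this
    · have := ha1.trans (min_le_right A B)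
      rw [hB] at this
      exact this
  have hH2 : ¬ Heavy X (2 ^ (a + 1)) (y, y') := by
    rintro ⟨h1, h2⟩
    simp only at h1 h2
    have h3 : 2 ^ (a + 1) ≤ min A B := by
      apply le_min
      · rw [hA]; exact h1
      · rw [hB]; exact h2
    omega
  have hJl : ((τ, (y, y')) : Fin s × (EuclideanSpace ℝ (Fin d) × EuclideanSpace ℝ (Fin d))) ∈
      Jl F a := by
    unfold Jl
    rw [Finset.mem_filter]
    exact ⟨hidx, X, hX, hoff, hH1, hH2⟩
  rw [Finset.mem_biUnion]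
  refine ⟨a, Finset.mem_range.mpr hal, ?_⟩
  unfold Jt
  rw [Finset.mem_filter]
  refine ⟨hJl, ?_⟩
  by_contra hcon
  push Not at hcon
  apply hn
  rw [Finset.mem_biUnion]
  refine ⟨a, Finset.mem_range.mpr hal, ?_⟩
  unfold vb rl
  rw [Finset.mem_filter, Finset.mem_image]
  refine ⟨⟨(τ, (y, y')), ?_, rfl⟩, (y, y'), hne, rfl, hH1⟩
  rw [Finset.mem_filter]
  exact ⟨hJl, hdv, hcon⟩

open scoped Classical in
/-- one class of one block -/
theorem class_bound {d s : ℕ} (F : Fin s → Finset (Finset (EuclideanSpace ℝ (Fin d)))) (x l : ℕ)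
    (μ : ℕ → ℝ) (p : EuclideanSpace ℝ (Fin d)) (τ : Fin s) (X : Finset (EuclideanSpace ℝ (Fin d)))
    (hX : X ∈ F τ) (hx : X.card = x) (hxl : x < 2 ^ l)
    (H : Finset (Submodule ℝ (EuclideanSpace ℝ (Fin d) × ℝ)))
    (hH : H = (range l).biUnion (fun a => vb F a (μ a) p X)) {β : Type*}
    (f : EuclideanSpace ℝ (Fin d) → β)
    (hmem : ∀ q q' : EuclideanSpace ℝ (Fin d), f q = f q' → dualVec (q, q') ∈ hyp p)
    (LP : Finset (EuclideanSpace ℝ (Fin d) × EuclideanSpace ℝ (Fin d)))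
    (hLP : LP = (X ×ˢ X).filter (fun z => (τ, z) ∈ (range l).biUnion (fun a => Jt F a (μ a)) ∧
      dualVec z ∈ hyp p)) (r0 : ℝ) (hr3 : 3 ≤ r0) (c : β) :
    (((X \ good X H).filter (fun q => f q = c)).card : ℝ) ≤
      r0 + 18 / r0 * ((LP.filter (fun z => f z.1 = c)).card : ℝ) := by
  obtain ⟨C, hC⟩ : ∃ C : Finset (EuclideanSpace ℝ (Fin d)), C = X.filter (fun q => f q = c) :=
    ⟨_, rfl⟩
  have hmC : ∀ q, q ∈ C ↔ q ∈ X ∧ f q = c := by
    intro q; rw [hC, Finset.mem_filter]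
  have h0 : (0:ℝ) ≤ 18 / r0 * ((LP.filter (fun z => f z.1 = c)).card : ℝ) := by positivity
  by_cases hsmall : (C.card : ℝ) < r0
  · have h1 : (((X \ good X H).filter (fun q => f q = c)).card : ℝ) ≤ C.card := by
      exact_mod_cast Finset.card_le_card (by
        rw [hC]
        exact Finset.filter_subset_filter _ Finset.sdiff_subset)
    linarith
  · push Not at hsmall
    have hC3 : 3 ≤ C.card := by
      have : (3:ℝ) ≤ C.card := hr3.trans hsmall
      exact_mod_cast this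
    obtain ⟨N, T, hN, hT, ht⟩ := tri_class' C (fun a b => dl a b ∈ H)
      (fun a b h => by rw [dl_comm]; exact h) hC3
    have h1 : ((X \ good X H).filter (fun q => f q = c)) ⊆ N := by
      intro q hq
      rw [Finset.mem_filter, Finset.mem_sdiff] at hq
      apply hN q ((hmC q).mpr ⟨hq.1.1, hq.2⟩)
      rintro ⟨b, hb, b', hb', hh⟩
      apply hq.1.2
      unfold good
      rw [Finset.mem_filter]
      exact ⟨hq.1.1, b, ((hmC b).mp hb).1, b', ((hmC b').mp hb').1, hh⟩
    have h2 : T ⊆ LP.filter (fun z => f z.1 = c) := by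
      intro z hz
      obtain ⟨z1, z2, z3, z4⟩ := hT z hz
      rw [hmC] at z1 z2
      rw [Finset.mem_filter, hLP, Finset.mem_filter, Finset.mem_product]
      have hd := hmem z.1 z.2 (z1.2.trans z2.2.symm)
      refine ⟨⟨⟨z1.1, z2.1⟩, ?_, hd⟩, z1.2⟩
      rw [hH] at z4
      exact poor_of_not_heavy F x l μ p τ X hX hx hxl z.1 z.2 z1.1 z2.1 z3 hd z4
    have h3 := Finset.card_le_card h1
    have h4 := Finset.card_le_card h2
    obtain ⟨m, hm⟩ : ∃ m : ℕ, m = ((X \ good X H).filter (fun q => f q = c)).card := ⟨_, rfl⟩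
    obtain ⟨n, hn⟩ : ∃ n : ℕ, n = (LP.filter (fun z => f z.1 = c)).card := ⟨_, rfl⟩
    rw [← hm] at h3
    rw [← hn] at h4
    rw [← hm, ← hn]
    have h5 : m * C.card ≤ 18 * n :=
      (Nat.mul_le_mul_right _ h3).trans (ht.trans (Nat.mul_le_mul_left _ h4))
    have h6 : (m:ℝ) * C.card ≤ 18 * n := by exact_mod_cast h5
    have h7 : (m:ℝ) * r0 ≤ 18 * n :=
      (mul_le_mul_of_nonneg_left hsmall (Nat.cast_nonneg m)).trans h6
    have hr0' : 0 < r0 := by linarith
    have h8 : (m:ℝ) ≤ 18 / r0 * n := by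
      rw [div_mul_eq_mul_div, le_div_iff₀ hr0']
      exact h7
    linarith

open scoped Classical in
/-- one block -/
theorem tri_block {d s : ℕ} (F : Fin s → Finset (Finset (EuclideanSpace ℝ (Fin d)))) (x l : ℕ)
    (μ : ℕ → ℝ) (p : EuclideanSpace ℝ (Fin d)) (τ : Fin s) (X : Finset (EuclideanSpace ℝ (Fin d)))
    (hX : X ∈ F τ) (hx : X.card = x) (hxl : x < 2 ^ l) (K : ℝ)
    (A' : Submodule ℝ (EuclideanSpace ℝ (Fin d) × ℝ)) (hA' : A' ≤ hyp p) (J κ : ℝ) (hκ : 1 ≤ κ)
    (hJ : 3072 * κ ≤ J)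
    (hcos : ((X.image (fun q => A'.mkQ (para q))).card : ℝ) ≤ 128 * κ * x / J)
    (hlight : (((X ×ˢ X).filter (fun z => (τ, z) ∈ (range l).biUnion (fun a => Jt F a (μ a)) ∧
      dualVec z ∈ hyp p)).card : ℝ) ≤ x * J / (2 ^ 20 * κ))
    (hv : ∑ a ∈ range l, ((vb F a (μ a) p X).card : ℝ) ≤ K) : Bad X K p := by
  have hκ0 : 0 < κ := by linarith
  have hJ0 : 0 < J := by linarith
  obtain ⟨H, hH⟩ : ∃ H : Finset (Submodule ℝ (EuclideanSpace ℝ (Fin d) × ℝ)),
      H = (range l).biUnion (fun a => vb F a (μ a) p X) := ⟨_, rfl⟩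
  refine ⟨H, ?_, ?_, ?_⟩
  · have h2 : (H.card : ℝ) ≤ ∑ a ∈ range l, ((vb F a (μ a) p X).card : ℝ) := by
      rw [hH]
      exact_mod_cast Finset.card_biUnion_le
    linarith
  · intro L hL
    rw [hH, Finset.mem_biUnion] at hL
    obtain ⟨a, _, hL⟩ := hL
    unfold vb rl at hL
    rw [Finset.mem_filter, Finset.mem_image] at hL
    obtain ⟨⟨i, hi, hiL⟩, _⟩ := hL
    rw [Finset.mem_filter] at hi
    rw [← hiL, Submodule.span_singleton_le_iff_mem]
    exact hi.2.1
  -- the classes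
  obtain ⟨f, hf⟩ : ∃ f : EuclideanSpace ℝ (Fin d) → (EuclideanSpace ℝ (Fin d) × ℝ) ⧸ A',
      f = fun q => A'.mkQ (para q) := ⟨_, rfl⟩
  obtain ⟨U, hU⟩ : ∃ U : Finset ((EuclideanSpace ℝ (Fin d) × ℝ) ⧸ A'), U = X.image f := ⟨_, rfl⟩
  have hcos' : (U.card : ℝ) ≤ 128 * κ * x / J := by rw [hU, hf]; exact hcos
  obtain ⟨LP, hLP⟩ : ∃ LP : Finset (EuclideanSpace ℝ (Fin d) × EuclideanSpace ℝ (Fin d)),
      LP = (X ×ˢ X).filter (fun z => (τ, z) ∈ (range l).biUnion (fun a => Jt F a (μ a)) ∧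
      dualVec z ∈ hyp p) := ⟨_, rfl⟩
  rw [← hLP] at hlight
  have hfX : ∀ q ∈ X, f q ∈ U := by
    intro q hq
    rw [hU]
    exact Finset.mem_image_of_mem f hq
  have hmem : ∀ q q' : EuclideanSpace ℝ (Fin d), f q = f q' → dualVec (q, q') ∈ hyp p := by
    intro q q' h
    rw [hf] at h
    have h1 : para q - para q' ∈ A' := (Submodule.Quotient.eq A').mp h
    exact hA' h1
  -- r0
  obtain ⟨r0, hr0⟩ : ∃ r0 : ℝ, r0 = J / (1024 * κ) := ⟨_, rfl⟩
  have hr3 : 3 ≤ r0 := by
    rw [hr0, le_div_iff₀ (by positivity)]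
    linarith
  have hclass : ∀ c ∈ U, (((X \ good X H).filter (fun q => f q = c)).card : ℝ) ≤
      r0 + 18 / r0 * ((LP.filter (fun z => f z.1 = c)).card : ℝ) := fun c _ =>
    class_bound F x l μ p τ X hX hx hxl H hH f hmem LP hLP r0 hr3 c
  -- sum over the classes
  have hs3 : ((X \ good X H).card : ℝ) ≤ U.card * r0 + 18 / r0 * LP.card := by
    apply sum_classes (X \ good X H) LP f U ?_ ?_ r0 (18 / r0) hclass
    · intro q hq
      exact hfX q (Finset.mem_sdiff.mp hq).1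
    · intro z hz
      rw [hLP, Finset.mem_filter, Finset.mem_product] at hz
      exact hfX _ hz.1.1
  have hx0 : (0:ℝ) ≤ x := Nat.cast_nonneg _
  have hs4 : (U.card : ℝ) * r0 ≤ x / 8 := by
    calc (U.card : ℝ) * r0 ≤ (128 * κ * x / J) * r0 :=
          mul_le_mul_of_nonneg_right hcos' (by linarith)
      _ = x / 8 := by rw [hr0]; field_simp; ring
  have hs5 : 18 / r0 * (LP.card : ℝ) ≤ x / 8 := by
    calc 18 / r0 * (LP.card : ℝ) ≤ 18 / r0 * (x * J / (2 ^ 20 * κ)) :=
          mul_le_mul_of_nonneg_left hlight (by positivity)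
      _ = 18 / 1024 * x := by rw [hr0]; field_simp; ring
      _ ≤ x / 8 := by linarith
  have hgX : good X H ⊆ X := by unfold good; exact Finset.filter_subset _ _
  have hs6 : ((X \ good X H).card : ℝ) + (good X H).card = x := by
    rw [← hx]
    exact_mod_cast Finset.card_sdiff_add_card_eq_card hgX
  rw [hx]
  linarith

open scoped Classical in
/-- (U2) large classes -/
theorem tri_blocks (d : ℕ) : TriBlocks d := by
  intro P Q s x l t1 I C1 Λ κ F jp D hl hxl η μ hη p hp hbig hrl hmass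
  have DA := D.toA
  have hκ1 := DA.hκ1
  obtain ⟨J, hJ⟩ : ∃ J : ℝ, J = (2:ℝ) ^ (jp p) := ⟨_, rfl⟩
  have hl0 : (0:ℝ) < l := by exact_mod_cast hl
  have hκ0 : 0 < κ := by linarith
  have hJ0 : 0 < J := by rw [hJ]; positivity
  have hx8 := DA.hx8
  have hx0 : (0:ℝ) < x := by
    have h5 : 0 < x := by omega
    exact_mod_cast h5
  rw [← hJ] at hbig
  obtain ⟨A', hA', hcos⟩ : ∃ A' : Submodule ℝ (EuclideanSpace ℝ (Fin d) × ℝ), A' ≤ hyp p ∧
        ∑ B ∈ Bl F, ((B.2.image (fun q => A'.mkQ (para q))).card : ℝ) ≤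
          κ * (s * Q.card) / J := by
    rcases D.hj4 p hp with h | ⟨A', h1, h2⟩
    · exfalso
      rw [← hJ] at h
      linarith
    · exact ⟨A', h1, by rw [hJ]; exact h2⟩
  have hBlow := DA.hBlow
  -- S3: heavy mirrors
  have h2 := heavy_blocks d P Q s x l t1 I C1 Λ κ F jp DA hl η μ hη p hp hrl
  obtain ⟨S3, hS3⟩ : ∃ S3 : Finset (Σ _ : Fin s, Finset (EuclideanSpace ℝ (Fin d))),
      S3 = (Bl F).filter (fun B => 256 * l * Λ * η <
      ∑ a ∈ range l, ((vb F a (μ a) p B.2).card : ℝ)) := ⟨_, rfl⟩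
  rw [← hS3] at h2
  -- S1: number of cosets
  obtain ⟨S1, hS1⟩ : ∃ S1 : Finset (Σ _ : Fin s, Finset (EuclideanSpace ℝ (Fin d))),
      S1 = (Bl F).filter (fun B => 128 * κ * x / J <
      ((B.2.image (fun q => A'.mkQ (para q))).card : ℝ)) := ⟨_, rfl⟩
  have h1 : 8 * S1.card ≤ (Bl F).card := by
    have a1 : (S1.card : ℝ) * (128 * κ * x / J) ≤
        ∑ B ∈ S1, ((B.2.image (fun q => A'.mkQ (para q))).card : ℝ) := by
      rw [← nsmul_eq_mul]
      apply Finset.card_nsmul_le_sum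
      intro B hB
      rw [hS1, Finset.mem_filter] at hB
      exact le_of_lt hB.2
    have a2 : ∑ B ∈ S1, ((B.2.image (fun q => A'.mkQ (para q))).card : ℝ) ≤
        ∑ B ∈ Bl F, ((B.2.image (fun q => A'.mkQ (para q))).card : ℝ) := by
      apply Finset.sum_le_sum_of_subset_of_nonneg
      · rw [hS1]; exact Finset.filter_subset _ _
      · intro _ _ _; positivity
    have a3 : (S1.card : ℝ) * (128 * κ * x / J) ≤ κ * (8 * x * (Bl F).card) / J := by
      refine (a1.trans (a2.trans hcos)).trans ?_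
      apply div_le_div_of_nonneg_right _ hJ0.le
      exact mul_le_mul_of_nonneg_left hBlow hκ0.le
    have a4 : (8 * (S1.card : ℝ)) * (16 * κ * x / J) ≤ ((Bl F).card / 2 : ℝ) * (16 * κ * x / J) := by
      calc (8 * (S1.card : ℝ)) * (16 * κ * x / J) = (S1.card : ℝ) * (128 * κ * x / J) := by ring
        _ ≤ κ * (8 * x * (Bl F).card) / J := a3
        _ = ((Bl F).card / 2 : ℝ) * (16 * κ * x / J) := by ring
    have a5 : 8 * (S1.card : ℝ) ≤ (Bl F).card / 2 := le_of_mul_le_mul_right a4 (by positivity)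
    have a6 : 8 * (S1.card : ℝ) ≤ (Bl F).card := by
      have : (0:ℝ) ≤ (Bl F).card := Nat.cast_nonneg _
      linarith
    exact_mod_cast a6
  -- S2: poor pairs
  obtain ⟨JJ, hJJ⟩ : ∃ JJ : Finset (Fin s × (EuclideanSpace ℝ (Fin d) × EuclideanSpace ℝ (Fin d))),
      JJ = (range l).biUnion (fun a => Jt F a (μ a)) := ⟨_, rfl⟩
  have hJm : mass JJ vv (hyp p) ≤ s * Q.card * J / (2 ^ 26 * κ) := by
    have e1 : mass JJ vv (hyp p) ≤ ∑ a ∈ range l, mass (Jt F a (μ a)) vv (hyp p) := by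
      unfold mass
      rw [hJJ, Finset.filter_biUnion]
      exact_mod_cast Finset.card_biUnion_le
    have e2 : ∑ a ∈ range l, mass (Jt F a (μ a)) vv (hyp p) ≤
        ∑ a ∈ range l, ((s:ℝ) * Q.card * J / (2 ^ 26 * κ * l)) := by
      apply Finset.sum_le_sum
      intro a ha
      have := hmass a (Finset.mem_range.mp ha)
      rw [← hJ] at this
      exact this
    rw [Finset.sum_const, Finset.card_range, nsmul_eq_mul] at e2
    have e3 : (l:ℝ) * ((s:ℝ) * Q.card * J / (2 ^ 26 * κ * l)) = s * Q.card * J / (2 ^ 26 * κ) := by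
      field_simp
    linarith
  obtain ⟨LP, hLP⟩ : ∃ LP : (Σ _ : Fin s, Finset (EuclideanSpace ℝ (Fin d))) →
      Finset (EuclideanSpace ℝ (Fin d) × EuclideanSpace ℝ (Fin d)),
      LP = fun B => (B.2 ×ˢ B.2).filter (fun z => (B.1, z) ∈ JJ ∧ dualVec z ∈ hyp p) := ⟨_, rfl⟩
  have hmLP : ∀ B z, z ∈ LP B ↔ (z.1 ∈ B.2 ∧ z.2 ∈ B.2) ∧ (B.1, z) ∈ JJ ∧ dualVec z ∈ hyp p := by
    intro B z
    rw [hLP]
    simp only [Finset.mem_filter, Finset.mem_product]
  have hinj : ∑ B ∈ Bl F, (LP B).card ≤ (JJ.filter (fun i => vv i ∈ hyp p)).card := by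
    rw [← Finset.card_sigma]
    apply Finset.card_le_card_of_injOn (fun y => (y.1.1, y.2))
    · intro y hy
      rw [Finset.mem_coe, Finset.mem_sigma, hmLP] at hy
      rw [Finset.mem_coe, Finset.mem_filter]
      exact ⟨hy.2.2.1, hy.2.2.2⟩
    · intro y hy y' hy' hyy
      rw [Finset.mem_coe, Finset.mem_sigma, hmLP] at hy hy'
      simp only [Prod.mk.injEq] at hyy
      obtain ⟨e1, e2⟩ := hyy
      obtain ⟨⟨τ, X⟩, q⟩ := y
      obtain ⟨⟨τ', X'⟩, q'⟩ := y'
      simp only at e1 e2 hy hy'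
      subst e1
      subst e2
      have hX : X ∈ F τ := by
        have := hy.1
        unfold Bl at this
        rw [Finset.mem_sigma] at this
        exact this.2
      have hX' : X' ∈ F τ := by
        have := hy'.1
        unfold Bl at this
        rw [Finset.mem_sigma] at this
        exact this.2
      have hXX := DA.hFdis τ X hX X' hX' q.1 hy.2.1.1 hy'.2.1.1
      subst hXX
      rfl
  obtain ⟨S2', hS2⟩ : ∃ S2' : Finset (Σ _ : Fin s, Finset (EuclideanSpace ℝ (Fin d))),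
      S2' = (Bl F).filter (fun B => x * J / (2 ^ 20 * κ) < ((LP B).card : ℝ)) := ⟨_, rfl⟩
  have h3 : 8 * S2'.card ≤ (Bl F).card := by
    have a1 : (S2'.card : ℝ) * (x * J / (2 ^ 20 * κ)) ≤ ∑ B ∈ S2', ((LP B).card : ℝ) := by
      rw [← nsmul_eq_mul]
      apply Finset.card_nsmul_le_sum
      intro B hB
      rw [hS2, Finset.mem_filter] at hB
      exact le_of_lt hB.2
    have a2 : ∑ B ∈ S2', ((LP B).card : ℝ) ≤ ∑ B ∈ Bl F, ((LP B).card : ℝ) := by
      apply Finset.sum_le_sum_of_subset_of_nonneg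
      · rw [hS2]; exact Finset.filter_subset _ _
      · intro _ _ _; positivity
    have a3 : ∑ B ∈ Bl F, ((LP B).card : ℝ) ≤ mass JJ vv (hyp p) := by
      unfold mass
      exact_mod_cast hinj
    have a4 : (S2'.card : ℝ) * (x * J / (2 ^ 20 * κ)) ≤
        8 * x * (Bl F).card * J / (2 ^ 26 * κ) := by
      refine (a1.trans (a2.trans (a3.trans hJm))).trans ?_
      apply div_le_div_of_nonneg_right _ (by positivity)
      exact mul_le_mul_of_nonneg_right hBlow hJ0.le
    have a5 : (8 * (S2'.card : ℝ)) * (x * J / (2 ^ 23 * κ)) ≤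
        ((Bl F).card : ℝ) * (x * J / (2 ^ 23 * κ)) := by
      calc (8 * (S2'.card : ℝ)) * (x * J / (2 ^ 23 * κ))
          = (S2'.card : ℝ) * (x * J / (2 ^ 20 * κ)) := by field_simp; ring
        _ ≤ 8 * x * (Bl F).card * J / (2 ^ 26 * κ) := a4
        _ = ((Bl F).card : ℝ) * (x * J / (2 ^ 23 * κ)) := by field_simp; ring
    have a6 : 8 * (S2'.card : ℝ) ≤ (Bl F).card := le_of_mul_le_mul_right a5 (by positivity)
    exact_mod_cast a6
  have hsub : (Bl F).filter (fun B => ¬ Bad B.2 (256 * l * Λ * η) p) ⊆ (S1 ∪ S2') ∪ S3 := by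
    intro B hB
    rw [Finset.mem_filter] at hB
    by_contra hcon
    rw [Finset.mem_union, Finset.mem_union] at hcon
    push Not at hcon
    obtain ⟨⟨c1, c2⟩, c3⟩ := hcon
    apply hB.2
    have hBF : B.2 ∈ F B.1 := by
      have := hB.1
      unfold Bl at this
      rw [Finset.mem_sigma] at this
      exact this.2
    have hBx := DA.hFcard B.1 B.2 hBF
    have m1 : ((B.2.image (fun q => A'.mkQ (para q))).card : ℝ) ≤ 128 * κ * x / J := by
      by_contra h
      push Not at h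
      apply c1
      rw [hS1, Finset.mem_filter]
      exact ⟨hB.1, h⟩
    have m2 : ∑ a ∈ range l, ((vb F a (μ a) p B.2).card : ℝ) ≤ 256 * l * Λ * η := by
      by_contra h
      push Not at h
      apply c3
      rw [hS3, Finset.mem_filter]
      exact ⟨hB.1, h⟩
    have m3 : ((LP B).card : ℝ) ≤ x * J / (2 ^ 20 * κ) := by
      by_contra h
      push Not at h
      apply c2
      rw [hS2, Finset.mem_filter]
      exact ⟨hB.1, h⟩
    rw [hLP, hJJ] at m3
    exact tri_block F x l μ p B.1 B.2 hBF hBx hxl _ A' hA' J κ hκ1 hbig m1 m3 m2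
  have hc := Finset.card_le_card hsub
  have hc2 := Finset.card_union_le (S1 ∪ S2') S3
  have hc3 := Finset.card_union_le S1 S2'
  omega

end Vale.Agent.P054I
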